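import Vale.Agent.P273.H573.Skel
import Vale.Agent.P273.H261.Wedge2

/-!
# P273, LIM, S6-split: the limit integrand on the frame

`mkE` : the marks are the free gaps and the core marks.  `OmL_split` : the value of the limit
integrand on the frame `fr30` is the value of `FL` on the pairs of the surviving gaps and of the
core marks times the value `DT` on the pairs of the gaps of `B` and of the base.
-/

noncomputable section

namespace Vale.Agent.P273.H484

open Set Filter MeasureTheory H681 H95 H732 H973 H562 H573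
open scoped Topology ContDiff

section Marks

variable (R : Region) (m : ∀ k, Fin (R.n k + 1))

/-- the free gap or the core place of a mark -/
def mkF (j : L) : (W R m).Fr ⊕ R.Cm :=
  match h : R.pl j with
  | Sum.inl k => Sum.inl (frE R.n m ⟨k, rkF R h⟩)
  | Sum.inr _ => Sum.inr ⟨j, by simp [h]⟩

variable {R} in
theorem mkF_inl {j : L} {k : Fin 3} (h : R.pl j = Sum.inl k) :
    mkF R m j = Sum.inl (frE R.n m ⟨k, rkF R h⟩) := by
  unfold mkF
  split
  · rename_i k' h'
    have : k' = k := by rw [h] at h'; exact (Sum.inl.inj h').symm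
    subst this
    rfl
  · rename_i s h'
    rw [h] at h'
    cases h'

variable {R} in
theorem mkF_inr {j : L} {s : Bool} (h : R.pl j = Sum.inr s) :
    mkF R m j = Sum.inr ⟨j, by simp [h]⟩ := by
  unfold mkF
  split
  · rename_i k' h'
    rw [h] at h'
    cases h'
  · rfl

/-- the two vectors of a place -/
def pv (x : (W R m).Fr ⊕ R.Cm) (c : Bool) : Co R m :=
  match x with
  | Sum.inl f => if c then (W R m).vec (.ph f) else -(W R m).vec (.u f)
  | Sum.inr s => if c then (W R m).vec (.im s) else (W R m).vec (.re s)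

theorem fr_eq (j : L) (c : Bool) : fr R m j c = pv R m (mkF R m j) c := by
  unfold fr
  split
  · rename_i k h
    rw [mkF_inl m h]
    rfl
  · rename_i s h
    rw [mkF_inr m h]
    rfl

theorem mkF_injective : Function.Injective (mkF R m) := by
  intro j j' h
  rcases h1 : R.pl j with k | s <;> rcases h2 : R.pl j' with k' | s'
  · rw [mkF_inl m h1, mkF_inl m h2] at h
    have h3 := (frE R.n m).injective (Sum.inl.inj h)
    have h4 : k = k' := congrArg Sigma.fst h3
    subst h4
    have h5 : rkF R h1 = rkF R h2 := eq_of_heq (Sigma.mk.inj h3).2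
    exact R.rk_inj j j' k h1 h2 (congrArg Fin.val h5)
  · rw [mkF_inl m h1, mkF_inr m h2] at h
    cases h
  · rw [mkF_inr m h1, mkF_inl m h2] at h
    cases h
  · rw [mkF_inr m h1, mkF_inr m h2] at h
    exact congrArg Subtype.val (Sum.inr.inj h)

theorem exists_rk (k : Fin 3) (i : Fin (R.n k)) :
    ∃ (j : L) (h : R.pl j = Sum.inl k), rkF R h = i := by
  let f : {j : L // R.pl j = Sum.inl k} → Fin (R.n k) := fun j => rkF R j.2
  have hf : Function.Injective f := by
    rintro ⟨j, h1⟩ ⟨j', h2⟩ h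
    exact Subtype.ext (R.rk_inj j j' k h1 h2 (congrArg Fin.val h))
  have hb : Function.Bijective f := by
    refine (Fintype.bijective_iff_injective_and_card f).2 ⟨hf, ?_⟩
    rw [Fintype.card_subtype, Fintype.card_fin]
    rfl
  obtain ⟨⟨j, h⟩, hj⟩ := hb.2 i
  exact ⟨j, h, hj⟩

theorem mkF_bijective : Function.Bijective (mkF R m) := by
  refine ⟨mkF_injective R m, ?_⟩
  rintro (f | s)
  · obtain ⟨⟨k, i⟩, rfl⟩ := (frE R.n m).surjective f
    obtain ⟨j, h, rfl⟩ := exists_rk R k i
    exact ⟨j, mkF_inl m h⟩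
  · obtain ⟨j, hj⟩ := s
    rcases h : R.pl j with k | s
    · rw [h] at hj; cases hj
    · exact ⟨j, mkF_inr m h⟩

/-- the marks are the free gaps and the core marks -/
def mkE : L ≃ (W R m).Fr ⊕ R.Cm := Equiv.ofBijective _ (mkF_bijective R m)

theorem mrk_bijective : Function.Bijective mrk :=
  (Fintype.bijective_iff_injective_and_card _).2 ⟨by decide, by decide⟩

/-- the numbers of the marks -/
def nmE : Fin 14 ≃ L := Equiv.ofBijective _ mrk_bijective

theorem card_fr_cm : Fintype.card ((W R m).Fr ⊕ R.Cm) = 14 := by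
  rw [← Fintype.card_congr (nmE.trans (mkE R m)), Fintype.card_fin]

variable (B : Finset (W R m).Fr)

theorem last_mem_big (k : Fin 3) : (W R m).last k ∈ big R m B :=
  Finset.mem_union_right _ (Finset.mem_image_of_mem _ (Finset.mem_univ k))

theorem mem_big_iff (f : (W R m).Fr) : f.1 ∈ big R m B ↔ f ∈ B := by
  unfold big
  rw [Finset.mem_union]
  constructor
  · rintro (h | h)
    · obtain ⟨f', hf', h1⟩ := Finset.mem_map.1 h
      have : f' = f := Subtype.ext h1
      rwa [← this]
    · obtain ⟨k, -, hk⟩ := Finset.mem_image.1 h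
      exfalso
      apply f.2
      rw [← hk, (W R m).nk_last]
  · exact fun h => Or.inl (Finset.mem_map.2 ⟨f, h, rfl⟩)

theorem ne_last {g : R.Gap} (hg : g ∉ big R m B) : g ≠ (W R m).last ((W R m).nk g) := by
  intro h
  apply hg
  rw [h]
  exact last_mem_big R m B _

/-- a surviving gap is free -/
def svF (g : Sv R (big R m B)) : (W R m).Fr := ⟨g.1, ne_last R m B g.2⟩

theorem svF_notMem (g : Sv R (big R m B)) : svF R m B g ∉ B := fun h =>
  g.2 ((mem_big_iff R m B (svF R m B g)).2 h)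

theorem svF_injective : Function.Injective (svF R m B) := fun g g' h => by
  have : g.1 = g'.1 := congrArg (fun f : (W R m).Fr => f.1) h
  exact Subtype.ext this

/-- the place of a surviving gap or of a core mark -/
def plc : Sv R (big R m B) ⊕ R.Cm → (W R m).Fr ⊕ R.Cm
  | Sum.inl g => Sum.inl (svF R m B g)
  | Sum.inr s => Sum.inr s

theorem plc_injective : Function.Injective (plc R m B) := by
  rintro (g | s) (g' | s') h
  · exact congrArg _ (svF_injective R m B (Sum.inl.inj h))
  · cases h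
  · cases h
  · exact congrArg _ (Sum.inr.inj h)

/-- the two vectors of a surviving gap or of a core mark -/
def sfr (x : Sv R (big R m B) ⊕ R.Cm) (c : Bool) : Co R m := pv R m (plc R m B x) c

/-- the directions of the gaps of `B` and of the base -/
def dirB (a b : Co R m) : Option {f // f ∈ B} × Bool → Co R m
  | (some f, false) => -(W R m).vec (.u f.1)
  | (some f, true) => (W R m).vec (.ph f.1)
  | (none, false) => a
  | (none, true) => b

/-- the number of a pair in the frame -/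
def idx : (Sv R (big R m B) ⊕ R.Cm) ⊕ Option {f // f ∈ B} → Fin 15
  | Sum.inl x => Fin.castSucc ((nmE.trans (mkE R m)).symm (plc R m B x))
  | Sum.inr (some f) => Fin.castSucc ((nmE.trans (mkE R m)).symm (Sum.inl f.1))
  | Sum.inr none => Fin.last 14

theorem idx_injective : Function.Injective (idx R m B) := by
  have hc : Function.Injective (Fin.castSucc : Fin 14 → Fin 15) := Fin.castSucc_injective 14
  have hE := (nmE.trans (mkE R m)).symm.injective
  have hx : ∀ x (f : {f // f ∈ B}), plc R m B x ≠ Sum.inl f.1 := by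
    rintro (g | s) f h
    · apply svF_notMem R m B g
      rw [Sum.inl.inj h]
      exact f.2
    · cases h
  rintro (x | (_ | f)) (x' | (_ | f')) h
  · exact congrArg _ (plc_injective R m B (hE (hc h)))
  · exact absurd h (Fin.castSucc_lt_last _).ne
  · exact absurd (hE (hc h)) (hx x f')
  · exact absurd h.symm (Fin.castSucc_lt_last _).ne
  · rfl
  · exact absurd h.symm (Fin.castSucc_lt_last _).ne
  · exact absurd (hE (hc h)).symm (hx x' f)
  · exact absurd h (Fin.castSucc_lt_last _).ne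
  · have h1 := hE (hc h)
    have h2 : f = f' := Subtype.ext (Sum.inl.inj h1)
    rw [h2]

/-- the vector of a pair -/
def vx (a b : Co R m) (x : (Sv R (big R m B) ⊕ R.Cm) ⊕ Option {f // f ∈ B}) (c : Bool) : Co R m :=
  match x with
  | Sum.inl y => sfr R m B y c
  | Sum.inr o => dirB R m B a b (o, c)

theorem fr30_idx (a b : Co R m) (x : (Sv R (big R m B) ⊕ R.Cm) ⊕ Option {f // f ∈ B}) (i : Fin 30)
    (hi : (i : ℕ) / 2 = (idx R m B x : ℕ)) :
    fr30 R m a b i = vx R m B a b x (decide ((i : ℕ) % 2 = 1)) := by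
  have key : ∀ (y : (W R m).Fr ⊕ R.Cm), (i : ℕ) / 2 = ((nmE.trans (mkE R m)).symm y : ℕ) →
      fr30 R m a b i = pv R m y (decide ((i : ℕ) % 2 = 1)) := by
    intro y hy
    have h1 : (i : ℕ) < 28 := by
      have := ((nmE.trans (mkE R m)).symm y).2
      omega
    have h2 : i = Fin.castAdd 2 (⟨i, h1⟩ : Fin 28) := Fin.ext rfl
    have h3 : fr30 R m a b i = fr28 R m ⟨i, h1⟩ := by
      unfold fr30
      conv_lhs => rw [h2]
      exact Fin.append_left (m := 28) (n := 2) _ _ _
    have h4 : mkF R m (mrk ⟨(i : ℕ) / 2, by omega⟩) = y := by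
      have h5 : (⟨(i : ℕ) / 2, by omega⟩ : Fin 14) = (nmE.trans (mkE R m)).symm y := Fin.ext hy
      rw [h5]
      exact (nmE.trans (mkE R m)).apply_symm_apply y
    rw [h3, fr28, fr_eq, h4]
  rcases x with x | (_ | f)
  · exact key (plc R m B x) hi
  · have h1 : (i : ℕ) / 2 = 14 := hi
    have h2 : i = Fin.natAdd 28 (⟨(i : ℕ) % 2, Nat.mod_lt _ two_pos⟩ : Fin 2) :=
      Fin.ext (by simp only [Fin.val_natAdd]; omega)
    have h3 : fr30 R m a b i = ![a, b] ⟨(i : ℕ) % 2, Nat.mod_lt _ two_pos⟩ := by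
      unfold fr30
      conv_lhs => rw [h2]
      exact Fin.append_right (m := 28) (n := 2) _ _ _
    rw [h3]
    rcases Nat.mod_two_eq_zero_or_one (i : ℕ) with h | h
    · simp only [h]; rfl
    · simp only [h]; rfl
  · rw [key (Sum.inl f.1) hi]
    rcases Nat.mod_two_eq_zero_or_one (i : ℕ) with h | h
    · simp only [h]; rfl
    · simp only [h]; rfl

/-! ### the vectors that are killed -/

theorem Z_free {g : R.Gap} (hg : g ∉ big R m B) (v : Co R m) :
    (W R m).Z v g = -(v.1 ⟨g, ne_last R m B hg⟩ : ℂ) + (v.2.1 ⟨g, ne_last R m B hg⟩ : ℂ) *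
      Complex.I := by
  have h := ne_last R m B hg
  unfold Reg.Z Reg.ug Reg.fg
  rw [dif_pos h, dif_pos h]

theorem dqz_zero {p v : Co R m} (h1 : ∀ f ∉ B, v.1 f = 0) (h2 : ∀ f ∉ B, v.2.1 f = 0)
    (h3 : v.2.2.2.2 = 0) : dqz R m (big R m B) p v = 0 := by
  have h : (ContinuousLinearMap.prod
      (ContinuousLinearMap.pi fun g => (if g ∈ big R m B then 0 else (W R m).tau p g) •
        ((ContinuousLinearMap.proj g : (R.Gap → ℂ) →L[ℝ] ℂ).comp (W R m).Zc)) (W R m).sc) v = 0 := by
    refine Prod.ext (funext fun g => ?_) h3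
    change (if g ∈ big R m B then 0 else (W R m).tau p g) • (W R m).Z v g = 0
    by_cases hg : g ∈ big R m B
    · rw [if_pos hg, zero_smul]
    · have hf : (⟨g, ne_last R m B hg⟩ : (W R m).Fr) ∉ B := fun hcon =>
        hg ((mem_big_iff R m B ⟨g, ne_last R m B hg⟩).2 hcon)
      rw [Z_free R m B hg, h1 _ hf, h2 _ hf]
      simp
  unfold dqz
  rw [ContinuousLinearMap.comp_apply, h, map_zero]

theorem dqz_base {p a : Co R m} (ha1 : a.1 = 0) (ha2 : a.2.1 = 0) (ha3 : a.2.2.2.2 = 0) :
    dqz R m (big R m B) p a = 0 :=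
  dqz_zero R m B (fun f _ => by rw [ha1]; rfl) (fun f _ => by rw [ha2]; rfl) ha3

theorem dqz_dirB {p a b : Co R m} (ha : dqz R m (big R m B) p a = 0)
    (hb : dqz R m (big R m B) p b = 0)
    (o : Option {f // f ∈ B} × Bool) : dqz R m (big R m B) p (dirB R m B a b o) = 0 := by
  obtain ⟨(_ | f), c⟩ := o
  · cases c
    · exact ha
    · exact hb
  · have hne : ∀ f' ∉ B, f' ≠ f.1 := fun f' hf' h => hf' (h ▸ f.2)
    cases c
    · have h1 : dqz R m (big R m B) p ((W R m).vec (.u f.1)) = 0 := by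
        refine dqz_zero R m B (fun f' hf' => ?_) (fun f' _ => rfl) rfl
        change (Pi.single f.1 (1 : ℝ) : (W R m).Fr → ℝ) f' = 0
        rw [Pi.single_eq_of_ne (hne f' hf')]
      change dqz R m (big R m B) p (-(W R m).vec (.u f.1)) = 0
      rw [map_neg, h1, neg_zero]
    · refine dqz_zero R m B (fun f' _ => rfl) (fun f' hf' => ?_) rfl
      change (Pi.single f.1 (1 : ℝ) : (W R m).Fr → ℝ) f' = 0
      rw [Pi.single_eq_of_ne (hne f' hf')]

/-! ### the split -/

theorem card_left {n : ℕ} (e8 : Fin 8 ≃ Sv R (big R m B) ⊕ R.Cm)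
    (e : Fin n ≃ Option {f // f ∈ B}) :
    Fintype.card ((Sv R (big R m B) ⊕ R.Cm) ⊕ Option {f // f ∈ B}) = 8 + n := by
  rw [Fintype.card_sum, ← Fintype.card_congr e8, ← Fintype.card_congr e, Fintype.card_fin,
    Fintype.card_fin]

variable {B} in
/-- **S6-split.** The clean pairs in any order `e8`, the pairs of `B` and of the base in any
order `e`. -/
theorem OmL_split' (X : Ext) (T : MT) (n : ℕ) (S : L → Bool) (p a b : Co R m)
    (ha : dqz R m (big R m B) p a = 0) (hb : dqz R m (big R m B) p b = 0)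
    (e8 : Fin 8 ≃ Sv R (big R m B) ⊕ R.Cm) (e : Fin 7 ≃ Option {f // f ∈ B}) :
    OmL R m X T n S B p (fr30 R m a b) =
      FL R m X S (big R m B) p (fun i : Fin 16 =>
        sfr R m B (e8 ⟨i / 2, by omega⟩) (decide ((i : ℕ) % 2 = 1))) *
      H254.DT (fun x => grT n T x) (fun i (d : Co R m) => thL R m (big R m B) p.2.2.1 (mrk i) d)
        (fun i : Fin 14 => dirB R m B a b (e ⟨i / 2, by omega⟩, decide ((i : ℕ) % 2 = 1))) := by
  classical
  -- the order of the pairs
  let ρ : Fin 15 ≃ (Sv R (big R m B) ⊕ R.Cm) ⊕ Option {f // f ∈ B} :=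
    (finSumFinEquiv (m := 8) (n := 7)).symm.trans (Equiv.sumCongr e8 e)
  have hbij : Function.Bijective (idx R m B) := by
    refine (Fintype.bijective_iff_injective_and_card _).2 ⟨idx_injective R m B, ?_⟩
    rw [card_left R m B e8 e, Fintype.card_fin]
  let τ : Equiv.Perm (Fin 15) := ρ.trans (Equiv.ofBijective _ hbij)
  let π : Equiv.Perm (Fin (16 + 14)) := (finProdFinEquiv (m := 15) (n := 2)).permCongr
    (τ.prodCongr (Equiv.refl (Fin 2)))
  have hsign : Equiv.Perm.sign π = 1 := H261.sign_pairs τ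
  have hπ : ∀ i : Fin (16 + 14), ((π i : ℕ) / 2 = (τ ⟨(i : ℕ) / 2, by omega⟩ : ℕ)) ∧
      (π i : ℕ) % 2 = (i : ℕ) % 2 := by
    intro i
    have h1 : (π i : ℕ) = (i : ℕ) % 2 + 2 * (τ ⟨(i : ℕ) / 2, by omega⟩ : ℕ) := rfl
    rw [h1]
    have h2 : (i : ℕ) % 2 < 2 := Nat.mod_lt _ two_pos
    constructor <;> omega
  have hw : ∀ i : Fin (16 + 14), fr30 R m a b (π i) =
      vx R m B a b (ρ ⟨(i : ℕ) / 2, by omega⟩) (decide ((i : ℕ) % 2 = 1)) := by
    intro i
    rw [fr30_idx R m B a b (ρ ⟨(i : ℕ) / 2, by omega⟩) (π i) (hπ i).1, (hπ i).2]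
  have hl : ∀ i : Fin 16, ρ ⟨((Fin.castAdd 14 i : Fin (16 + 14)) : ℕ) / 2, by omega⟩ =
      Sum.inl (e8 ⟨(i : ℕ) / 2, by omega⟩) := by
    intro i
    have h1 : (⟨((Fin.castAdd 14 i : Fin (16 + 14)) : ℕ) / 2, by omega⟩ : Fin 15) =
        Fin.castAdd 7 (⟨(i : ℕ) / 2, by omega⟩ : Fin 8) := rfl
    rw [h1]
    change Equiv.sumCongr e8 e (finSumFinEquiv.symm (Fin.castAdd 7 _)) = _
    rw [finSumFinEquiv_symm_apply_castAdd]
    rfl
  have hr : ∀ i : Fin 14, ρ ⟨((Fin.natAdd 16 i : Fin (16 + 14)) : ℕ) / 2, by omega⟩ =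
      Sum.inr (e ⟨(i : ℕ) / 2, by omega⟩) := by
    intro i
    have h1 : (⟨((Fin.natAdd 16 i : Fin (16 + 14)) : ℕ) / 2, by omega⟩ : Fin 15) =
        Fin.natAdd 8 (⟨(i : ℕ) / 2, by omega⟩ : Fin 7) := by
      apply Fin.ext
      simp only [Fin.val_natAdd]
      omega
    rw [h1]
    change Equiv.sumCongr e8 e (finSumFinEquiv.symm (Fin.natAdd 8 _)) = _
    rw [finSumFinEquiv_symm_apply_natAdd]
    rfl
  have hpar : ∀ i : Fin 14, ((Fin.natAdd 16 i : Fin (16 + 14)) : ℕ) % 2 = (i : ℕ) % 2 := by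
    intro i
    simp only [Fin.val_natAdd]
    omega
  unfold OmL
  rw [H254.wedgeT_split_perm _ _ _ _ π ?_, hsign, one_smul, smul_eq_mul]
  · congr 1
    · congr 1
      funext i
      rw [hw, hl]
      rfl
    · congr 1
      funext i
      rw [hw, hr, hpar]
      rfl
  · rintro x ⟨i, j, hx⟩
    unfold FL
    rw [ContinuousAlternatingMap.compContinuousLinearMap_apply]
    refine (X.H R S (qz R m (big R m B) p)).map_coord_zero i ?_
    change dqz R m (big R m B) p (fr30 R m a b (x i)) = 0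
    rw [hx, hw, hr]
    exact dqz_dirB R m B ha hb _

variable {B} in
/-- **S6-split** for base vectors -/
theorem OmL_split (X : Ext) (T : MT) (n : ℕ) (S : L → Bool) (p a b : Co R m)
    (ha1 : a.1 = 0) (ha2 : a.2.1 = 0) (ha3 : a.2.2.2.2 = 0)
    (hb1 : b.1 = 0) (hb2 : b.2.1 = 0) (hb3 : b.2.2.2.2 = 0)
    (e8 : Fin 8 ≃ Sv R (big R m B) ⊕ R.Cm) (e : Fin 7 ≃ Option {f // f ∈ B}) :
    OmL R m X T n S B p (fr30 R m a b) =
      FL R m X S (big R m B) p (fun i : Fin 16 =>
        sfr R m B (e8 ⟨i / 2, by omega⟩) (decide ((i : ℕ) % 2 = 1))) *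
      H254.DT (fun x => grT n T x) (fun i (d : Co R m) => thL R m (big R m B) p.2.2.1 (mrk i) d)
        (fun i : Fin 14 => dirB R m B a b (e ⟨i / 2, by omega⟩, decide ((i : ℕ) % 2 = 1))) :=
  OmL_split' R m X T n S p a b (dqz_base R m B ha1 ha2 ha3) (dqz_base R m B hb1 hb2 hb3) e8 e

end Marks

end Vale.Agent.P273.H484

end
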