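import Vale.Agent.P273.H484.SplitP
import Vale.Agent.P273.H92.PolarForm
import Vale.Agent.P273.H92.Pairs

/-!
# P273, LIM: the limit form on the clean frame

`FL_cln` : the value of `FL` on the clean frame is the surviving integrand `Gc`.
-/

noncomputable section

namespace Vale.Agent.P273.H484

open Set Filter MeasureTheory H681 H95 H732 H973 H562 H573
open scoped Topology ContDiff

section

variable (R : Region) (m : ∀ k, Fin (R.n k + 1)) (B : Finset (W R m).Fr)

/-- the factor of a pair -/
def tv (p : Co R m) : Sv R (big R m B) ⊕ R.Cm → ℂ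
  | Sum.inl g => (W R m).tau p g.1
  | Sum.inr _ => 1

theorem dqz_apply (p v : Co R m) : dqz R m (big R m B) p v = H732.scl R
    (fun g => (if g ∈ big R m B then 0 else (W R m).tau p g) * (W R m).Z v g, v.2.2.2.2) := rfl

theorem embS_apply (Bg : Finset R.Gap) (z : (Sv R Bg → ℂ) × (R.Cm → ℂ)) :
    embS R Bg z = H732.scl R (fun g => if h : g ∉ Bg then z.1 ⟨g, h⟩ else 0, z.2) := by
  unfold embS
  rw [ContinuousLinearMap.comp_apply]
  congr 1
  refine Prod.ext (funext fun g => ?_) rfl
  change (if h : g ∉ Bg then (ContinuousLinearMap.proj (⟨g, h⟩ : Sv R Bg) :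
          (Sv R Bg → ℂ) →L[ℝ] ℂ) else 0) z.1 = if h : g ∉ Bg then z.1 ⟨g, h⟩ else 0
  by_cases h : g ∉ Bg
  · rw [dif_pos h, dif_pos h]; rfl
  · rw [dif_neg h, dif_neg h]; rfl

/-- the surviving components of the clean vectors -/
theorem Z_sfr (x : Sv R (big R m B) ⊕ R.Cm) (c : Bool) (g : Sv R (big R m B)) :
    (W R m).Z (sfr R m B x c) g.1 = (bS R (big R m B) x c).1 g := by
  rw [Z_free R m B g.2]
  rcases x with g' | s
  · by_cases h : g' = g
    · subst h
      cases c
      · change -((-(Pi.single (svF R m B g') (1 : ℝ) : (W R m).Fr → ℝ) (svF R m B g') : ℝ) : ℂ) +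
          ((-(0 : (W R m).Fr → ℝ) (svF R m B g') : ℝ) : ℂ) * Complex.I =
          (Pi.single g' (1 : ℂ) : Sv R (big R m B) → ℂ) g'
        rw [Pi.single_eq_same, Pi.single_eq_same]
        simp
      · change -(((0 : (W R m).Fr → ℝ) (svF R m B g') : ℝ) : ℂ) +
          (((Pi.single (svF R m B g') (1 : ℝ) : (W R m).Fr → ℝ) (svF R m B g') : ℝ) : ℂ) *
            Complex.I = (Pi.single g' Complex.I : Sv R (big R m B) → ℂ) g'
        rw [Pi.single_eq_same, Pi.single_eq_same]
        simp
    · have h1 : svF R m B g ≠ svF R m B g' := fun h2 => h (svF_injective R m B h2).symm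
      have h2 : g ≠ g' := fun h3 => h h3.symm
      cases c
      · change -((-(Pi.single (svF R m B g') (1 : ℝ) : (W R m).Fr → ℝ) (svF R m B g) : ℝ) : ℂ) +
          ((-(0 : (W R m).Fr → ℝ) (svF R m B g) : ℝ) : ℂ) * Complex.I =
          (Pi.single g' (1 : ℂ) : Sv R (big R m B) → ℂ) g
        rw [Pi.single_eq_of_ne h1, Pi.single_eq_of_ne h2]
        simp
      · change -(((0 : (W R m).Fr → ℝ) (svF R m B g) : ℝ) : ℂ) +
          (((Pi.single (svF R m B g') (1 : ℝ) : (W R m).Fr → ℝ) (svF R m B g) : ℝ) : ℂ) *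
            Complex.I = (Pi.single g' Complex.I : Sv R (big R m B) → ℂ) g
        rw [Pi.single_eq_of_ne h1, Pi.single_eq_of_ne h2]
        simp
  · cases c
    · change -(((0 : (W R m).Fr → ℝ) (svF R m B g) : ℝ) : ℂ) +
        (((0 : (W R m).Fr → ℝ) (svF R m B g) : ℝ) : ℂ) * Complex.I = 0
      simp
    · change -(((0 : (W R m).Fr → ℝ) (svF R m B g) : ℝ) : ℂ) +
        (((0 : (W R m).Fr → ℝ) (svF R m B g) : ℝ) : ℂ) * Complex.I = 0
      simp

theorem s_sfr (x : Sv R (big R m B) ⊕ R.Cm) (c : Bool) :
    (sfr R m B x c).2.2.2.2 = (bS R (big R m B) x c).2 := by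
  rcases x with g' | s
  · cases c
    · change -(0 : R.Cm → ℂ) = 0
      rw [neg_zero]
    · rfl
  · cases c <;> rfl

theorem dqz_sfr (p : Co R m) (x : Sv R (big R m B) ⊕ R.Cm) (c : Bool) :
    dqz R m (big R m B) p (sfr R m B x c) =
      (if c then -(tv R m B p x).im else (tv R m B p x).re) •
        embS R (big R m B) (bS R (big R m B) x false) +
      (if c then (tv R m B p x).re else (tv R m B p x).im) •
        embS R (big R m B) (bS R (big R m B) x true) := by
  have h0 : dqz R m (big R m B) p (sfr R m B x c) = embS R (big R m B)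
      (fun g => (W R m).tau p g.1 * (bS R (big R m B) x c).1 g, (bS R (big R m B) x c).2) := by
    rw [dqz_apply, embS_apply]
    congr 1
    refine Prod.ext (funext fun g => ?_) (s_sfr R m B x c)
    change (if g ∈ big R m B then 0 else (W R m).tau p g) * (W R m).Z (sfr R m B x c) g =
      if h : g ∉ big R m B then (W R m).tau p g * (bS R (big R m B) x c).1 ⟨g, h⟩ else 0
    by_cases h : g ∈ big R m B
    · rw [if_pos h, dif_neg (not_not.2 h), zero_mul]
    · rw [if_neg h, dif_pos h, ← Z_sfr R m B x c ⟨g, h⟩]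
  rw [h0, ← map_smul, ← map_smul, ← map_add]
  congr 1
  rcases x with g | s
  · refine Prod.ext (funext fun g' => ?_) ?_
    · by_cases h : g' = g
      · subst h
        cases c
        · change (W R m).tau p g'.1 * (Pi.single g' (1 : ℂ) : Sv R (big R m B) → ℂ) g' =
            ((W R m).tau p g'.1).re • (Pi.single g' (1 : ℂ) : Sv R (big R m B) → ℂ) g' +
            ((W R m).tau p g'.1).im • (Pi.single g' Complex.I : Sv R (big R m B) → ℂ) g'
          rw [Pi.single_eq_same, Pi.single_eq_same, mul_one, Complex.real_smul, Complex.real_smul,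
            mul_one]
          exact (Complex.re_add_im _).symm
        · change (W R m).tau p g'.1 * (Pi.single g' Complex.I : Sv R (big R m B) → ℂ) g' =
            (-((W R m).tau p g'.1).im) • (Pi.single g' (1 : ℂ) : Sv R (big R m B) → ℂ) g' +
            ((W R m).tau p g'.1).re • (Pi.single g' Complex.I : Sv R (big R m B) → ℂ) g'
          rw [Pi.single_eq_same, Pi.single_eq_same, Complex.real_smul, Complex.real_smul]
          apply Complex.ext <;> simp
      · cases c
        · change (W R m).tau p g'.1 * (Pi.single g (1 : ℂ) : Sv R (big R m B) → ℂ) g' =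
            ((W R m).tau p g.1).re • (Pi.single g (1 : ℂ) : Sv R (big R m B) → ℂ) g' +
            ((W R m).tau p g.1).im • (Pi.single g Complex.I : Sv R (big R m B) → ℂ) g'
          rw [Pi.single_eq_of_ne h, Pi.single_eq_of_ne h]
          simp
        · change (W R m).tau p g'.1 * (Pi.single g Complex.I : Sv R (big R m B) → ℂ) g' =
            (-((W R m).tau p g.1).im) • (Pi.single g (1 : ℂ) : Sv R (big R m B) → ℂ) g' +
            ((W R m).tau p g.1).re • (Pi.single g Complex.I : Sv R (big R m B) → ℂ) g'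
          rw [Pi.single_eq_of_ne h, Pi.single_eq_of_ne h]
          simp
    · cases c
      · change (0 : R.Cm → ℂ) = ((W R m).tau p g.1).re • 0 + ((W R m).tau p g.1).im • 0
        simp
      · change (0 : R.Cm → ℂ) = (-((W R m).tau p g.1).im) • 0 + ((W R m).tau p g.1).re • 0
        simp
  · refine Prod.ext (funext fun g' => ?_) ?_
    · cases c
      · change (W R m).tau p g'.1 * (0 : ℂ) = (1 : ℂ).re • (0 : ℂ) + (1 : ℂ).im • (0 : ℂ)
        simp
      · change (W R m).tau p g'.1 * (0 : ℂ) = (-(1 : ℂ).im) • (0 : ℂ) + (1 : ℂ).re • (0 : ℂ)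
        simp
    · cases c
      · change (Pi.single s (1 : ℂ) : R.Cm → ℂ) = (1 : ℂ).re • (Pi.single s (1 : ℂ) : R.Cm → ℂ) +
          (1 : ℂ).im • (Pi.single s Complex.I : R.Cm → ℂ)
        simp
      · change (Pi.single s Complex.I : R.Cm → ℂ) =
          (-(1 : ℂ).im) • (Pi.single s (1 : ℂ) : R.Cm → ℂ) +
          (1 : ℂ).re • (Pi.single s Complex.I : R.Cm → ℂ)
        simp

/-- the points are the same -/
theorem qz_eq (y α : Fin 3 → ℝ) (x : Fb R m) :
    qz R m (big R m B) (mk R m y α x) = embS R (big R m B)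
      (fun g => Complex.exp (-((rst R m (big R m B) x).1.1 g : ℂ) +
        (rst R m (big R m B) x).1.2 g * Complex.I), (rst R m (big R m B) x).2) := by
  rw [embS_apply]
  unfold qz
  congr 1
  refine Prod.ext (funext fun g => ?_) rfl
  by_cases h : g ∈ big R m B
  · change (if g ∈ big R m B then (0 : ℂ) else _) = if h : g ∉ big R m B then _ else 0
    rw [if_pos h, dif_neg (not_not.2 h)]
  · change (if g ∈ big R m B then (0 : ℂ) else (W R m).tau (mk R m y α x) g) =
      if h : g ∉ big R m B then Complex.exp (-((rst R m (big R m B) x).1.1 ⟨g, h⟩ : ℂ) +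
        (rst R m (big R m B) x).1.2 ⟨g, h⟩ * Complex.I) else 0
    rw [if_neg h, dif_pos h]
    unfold Reg.tau
    rw [Z_free R m B h]
    unfold rst
    simp only
    rw [dif_pos (ne_last R m B h), dif_pos (ne_last R m B h)]
    rfl

theorem norm_tv (y α : Fin 3 → ℝ) (x : Fb R m) (g : Sv R (big R m B)) :
    ‖(W R m).tau (mk R m y α x) g.1‖ ^ 2 = Real.exp (-2 * (rst R m (big R m B) x).1.1 g) := by
  unfold Reg.tau
  rw [Complex.norm_exp, ← Real.exp_nat_mul, Z_free R m B g.2]
  unfold rst
  simp only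
  rw [dif_pos (ne_last R m B g.2)]
  congr 1
  simp [H573.mk]

/-- **(J)** -/
theorem FL_clean (X : Ext) (far : R.Cm → Bool) (y α : Fin 3 → ℝ) (x : Fb R m)
    (e₈ : Fin 8 ≃ {f // f ∉ B} ⊕ R.Cm) :
    FL R m X (Sx R far) (big R m B) (mk R m y α x)
      (fun i : Fin 16 => cln R m B (e₈ ⟨i / 2, by omega⟩) (decide ((i : ℕ) % 2 = 1))) =
      Gc R (big R m B) X far (rst R m (big R m B) x) := by
  classical
  obtain ⟨e, he⟩ : ∃ e : Fin 8 ≃ Sv R (big R m B) ⊕ R.Cm,
      e = e₈.trans (Equiv.sumCongr (svE R m B).symm (Equiv.refl R.Cm)) := ⟨_, rfl⟩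
  have hcard : Fintype.card (Sv R (big R m B) ⊕ R.Cm) = 8 := by
    rw [← Fintype.card_congr e, Fintype.card_fin]
  unfold Gc
  rw [dif_pos hcard]
  -- the frame in the order `e`
  have h1 : (fun i : Fin 16 => cln R m B (e₈ ⟨i / 2, by omega⟩) (decide ((i : ℕ) % 2 = 1))) =
      fun i : Fin 16 => sfr R m B (e ⟨i / 2, by omega⟩) (decide ((i : ℕ) % 2 = 1)) := by
    funext i
    rw [he]
    exact (sfr_svE R m B _ _).symm
  rw [h1]
  unfold FL
  rw [ContinuousAlternatingMap.compContinuousLinearMap_apply, qz_eq]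
  set η := X.H R (Sx R far) (embS R (big R m B)
      (fun g => Complex.exp (-((rst R m (big R m B) x).1.1 g : ℂ) +
        (rst R m (big R m B) x).1.2 g * Complex.I), (rst R m (big R m B) x).2)) with hη
  let v : Fin 16 → R.Sp := fun i => embS R (big R m B)
    (bS R (big R m B) (e ⟨i / 2, by omega⟩) (decide ((i : ℕ) % 2 = 1)))
  let v' : Fin 16 → R.Sp := fun i => dqz R m (big R m B) (mk R m y α x)
    (sfr R m B (e ⟨i / 2, by omega⟩) (decide ((i : ℕ) % 2 = 1)))
  let a : Fin 8 → Fin 16 := fun g => ⟨2 * g, by omega⟩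
  let b : Fin 8 → Fin 16 := fun g => ⟨2 * g + 1, by omega⟩
  have ea : ∀ g : Fin 8, (⟨(a g : ℕ) / 2, by omega⟩ : Fin 8) = g := fun g =>
    Fin.ext (by simp only [a]; omega)
  have eb : ∀ g : Fin 8, (⟨(b g : ℕ) / 2, by omega⟩ : Fin 8) = g := fun g =>
    Fin.ext (by simp only [b]; omega)
  have pa : ∀ g : Fin 8, decide ((a g : ℕ) % 2 = 1) = false := fun g => by
    simp only [a, decide_eq_false_iff_not]; omega
  have pb : ∀ g : Fin 8, decide ((b g : ℕ) % 2 = 1) = true := fun g => by
    simp only [b, decide_eq_true_eq]; omega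
  let t : Fin 8 → ℂ := fun g => tv R m B (mk R m y α x) (e g)
  have va : ∀ g, v (a g) = embS R (big R m B) (bS R (big R m B) (e g) false) := fun g => by
    simp only [v]; rw [ea, pa]
  have vb : ∀ g, v (b g) = embS R (big R m B) (bS R (big R m B) (e g) true) := fun g => by
    simp only [v]; rw [eb, pb]
  have key := H92.alt_many (η.toAlternatingMap) v v' a b
    (fun g g' h => by
      have := congrArg Fin.val h
      simp only [a] at this
      exact Fin.ext (by omega))
    (fun g g' h => by
      have := congrArg Fin.val h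
      simp only [b] at this
      exact Fin.ext (by omega))
    (fun g g' h => by
      have := congrArg Fin.val h
      simp only [a, b] at this
      omega)
    (fun g => (t g).re) (fun g => (t g).im) (fun g => -(t g).im) (fun g => (t g).re) Finset.univ
    (fun g _ => by
      rw [va, vb]
      simp only [v']
      rw [ea, pa, dqz_sfr]
      rfl)
    (fun g _ => by
      rw [va, vb]
      simp only [v']
      rw [eb, pb, dqz_sfr]
      rfl)
    (fun j hj => by
      exfalso
      rcases Nat.mod_two_eq_zero_or_one (j : ℕ) with h | h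
      · exact (hj ⟨(j : ℕ) / 2, by omega⟩ (Finset.mem_univ _)).1 (Fin.ext (by simp only [a]; omega))
      · exact (hj ⟨(j : ℕ) / 2, by omega⟩ (Finset.mem_univ _)).2 (Fin.ext (by simp only [b]; omega)))
  -- the factor
  have hprod : ∏ g : Fin 8, ((t g).re * (t g).re - (t g).im * -(t g).im) =
      ∏ g, Real.exp (-2 * (rst R m (big R m B) x).1.1 g) := by
    have h2 : ∀ g : Fin 8, (t g).re * (t g).re - (t g).im * -(t g).im =
        ‖tv R m B (mk R m y α x) (e g)‖ ^ 2 := fun g => by
      rw [← Complex.normSq_eq_norm_sq, Complex.normSq_apply]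
      simp only [t]; ring
    rw [Finset.prod_congr rfl fun g _ => h2 g,
      Equiv.prod_comp e (fun z => ‖tv R m B (mk R m y α x) z‖ ^ 2), Fintype.prod_sum_type]
    have h3 : ∏ s : R.Cm, ‖tv R m B (mk R m y α x) (Sum.inr s)‖ ^ 2 = 1 :=
      Finset.prod_eq_one fun s _ => by simp [tv]
    rw [h3, mul_one]
    exact Finset.prod_congr rfl fun g _ => norm_tv R m B y α x g
  rw [hprod] at key
  -- the order of the pairs
  have hord := H92.alt_pairs16 (η.toAlternatingMap)
    (fun i c => embS R (big R m B) (bS R (big R m B) ((Fintype.equivFinOfCardEq hcard).symm i) c))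
    (e.trans (Fintype.equivFinOfCardEq hcard))
  simp only [Equiv.trans_apply, Equiv.symm_apply_apply] at hord
  change η v' = _ * η _
  change η v' = _ • η v at key
  change η v = η _ at hord
  rw [key, hord, smul_eq_mul]

end

end Vale.Agent.P273.H484

end
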