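import Vale.Agent.P273.H857.Stm

/-!
Row GP-LOW: uniform lower bounds along graph paths, stability of admissible paths.
-/

open Complex Set Filter Topology MeasureTheory
open scoped ContDiff

namespace Vale.Agent.P273.H484

open H857

noncomputable section

/-- the condition of `Adm` for one label, `w = b l - x` -/
def Cnd (B : Finset (Fin 6)) (g : ℝ → ℝ) (l : Fin 6) (w : ℂ) : Prop :=
  0 ≤ w.re → (l ∈ B → g w.re < w.im) ∧ (l ∉ B → w.im < g w.re)

theorem Cnd.ne {B : Finset (Fin 6)} {g : ℝ → ℝ} {l : Fin 6} {w : ℂ} (h : Cnd B g l w) {t : ℝ}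
    (ht : 0 ≤ t) : (t + g t * I : ℂ) ≠ w := by
  intro e
  have h1 : w.re = t := by rw [← e]; simp
  have h2 : w.im = g t := by rw [← e]; simp
  have h3 := h (by rw [h1]; exact ht)
  rw [h1, h2] at h3
  by_cases hl : l ∈ B
  · exact lt_irrefl _ (h3.1 hl)
  · exact lt_irrefl _ (h3.2 hl)

theorem Cnd.eventually {B : Finset (Fin 6)} {g : ℝ → ℝ} (hg : Continuous g) {l : Fin 6} {w : ℂ}
    (h : Cnd B g l w) : ∀ᶠ z in 𝓝 w, Cnd B g l z := by
  rcases lt_or_ge w.re 0 with h0 | h0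
  · have : ∀ᶠ z : ℂ in 𝓝 w, z.re < 0 := continuous_re.continuousAt.eventually (Iio_mem_nhds h0)
    filter_upwards [this] with z hz hz0
    exact absurd hz0 (not_le.2 hz)
  · have h1 := h h0
    have c1 : Continuous fun z : ℂ => g z.re := hg.comp continuous_re
    by_cases hl : l ∈ B
    · have : ∀ᶠ z : ℂ in 𝓝 w, g z.re < z.im :=
        (c1.continuousAt).eventually_lt continuous_im.continuousAt (h1.1 hl)
      filter_upwards [this] with z hz _
      exact ⟨fun _ => hz, fun h => absurd hl h⟩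
    · have : ∀ᶠ z : ℂ in 𝓝 w, z.im < g z.re :=
        (continuous_im.continuousAt).eventually_lt c1.continuousAt (h1.2 hl)
      filter_upwards [this] with z hz _
      exact ⟨fun h => absurd h hl, fun _ => hz⟩

/-- a graph that does not meet `z₀` is at distance `≥ c (1+t)` from all points near `z₀` -/
theorem graph_low {g : ℝ → ℝ} (hg : Continuous g) {z₀ : ℂ}
    (h : ∀ t : ℝ, 0 ≤ t → (t + g t * I : ℂ) ≠ z₀) :
    ∃ c > (0 : ℝ), ∀ z, ‖z - z₀‖ < c → ∀ t : ℝ, 0 ≤ t → c * (1 + t) ≤ ‖(t + g t * I : ℂ) - z‖ := by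
  have hc : Continuous fun t : ℝ => ‖(t + g t * I : ℂ) - z₀‖ := by fun_prop
  set T : ℝ := 2 * |z₀.re| + 2 with hT
  have hT0 : 0 ≤ T := by positivity
  obtain ⟨s, hs, hmin⟩ := (isCompact_Icc (a := (0 : ℝ)) (b := T)).exists_isMinOn
    ⟨0, by simpa using hT0⟩ hc.continuousOn
  have hs0 : 0 < ‖(s + g s * I : ℂ) - z₀‖ := norm_pos_iff.2 (sub_ne_zero.2 (h s hs.1))
  set m : ℝ := ‖(s + g s * I : ℂ) - z₀‖ with hm
  refine ⟨min (m / (2 * (1 + T))) (1 / 4), by positivity, fun z hz t ht => ?_⟩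
  set c : ℝ := min (m / (2 * (1 + T))) (1 / 4) with hcdef
  have c0 : 0 < c := by positivity
  have key : 2 * c * (1 + t) ≤ ‖(t + g t * I : ℂ) - z₀‖ := by
    rcases le_or_gt t T with h1 | h1
    · have h2 : m ≤ ‖(t + g t * I : ℂ) - z₀‖ := hmin ⟨ht, h1⟩
      refine le_trans ?_ h2
      have h3 : c ≤ m / (2 * (1 + T)) := min_le_left _ _
      have h4 : c * (2 * (1 + T)) ≤ m := by rwa [le_div_iff₀ (by positivity)] at h3
      nlinarith
    · have h2 : |((t + g t * I : ℂ) - z₀).re| ≤ ‖(t + g t * I : ℂ) - z₀‖ := abs_re_le_norm _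
      refine le_trans ?_ h2
      have h3 : ((t + g t * I : ℂ) - z₀).re = t - z₀.re := by simp
      rw [h3]
      refine le_trans ?_ (le_abs_self _)
      have h4 : c ≤ 1 / 4 := min_le_right _ _
      have h5 : z₀.re ≤ |z₀.re| := le_abs_self _
      nlinarith
  have h6 : ‖(t + g t * I : ℂ) - z₀‖ ≤ ‖(t + g t * I : ℂ) - z‖ + ‖z - z₀‖ := by
    have : (t + g t * I : ℂ) - z₀ = ((t + g t * I : ℂ) - z) + (z - z₀) := by ring
    rw [this]; exact norm_add_le _ _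
  nlinarith

/-- everything for one label -/
theorem one_label {B : Finset (Fin 6)} {g : ℝ → ℝ} (hg : Continuous g) {l : Fin 6} {w : ℂ}
    (h : Cnd B g l w) : ∃ δ > (0 : ℝ), ∃ c > (0 : ℝ), ∀ z, ‖z - w‖ < δ → Cnd B g l z ∧
      ∀ t : ℝ, 0 ≤ t → c * (1 + t) ≤ ‖(t + g t * I : ℂ) - z‖ := by
  obtain ⟨c, hc, h1⟩ := graph_low hg fun t ht => h.ne ht
  obtain ⟨δ, hδ, h2⟩ := Metric.eventually_nhds_iff.1 (h.eventually hg)
  refine ⟨min δ c, lt_min hδ hc, c, hc, fun z hz => ⟨h2 ?_, h1 z (lt_of_lt_of_le hz ?_)⟩⟩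
  · rw [dist_eq_norm]; exact lt_of_lt_of_le hz (min_le_left _ _)
  · exact min_le_right _ _

/-- all labels of a set -/
theorem all_labels {B : Finset (Fin 6)} {g : ℝ → ℝ} (hg : Continuous g) (L : Finset (Fin 6))
    {w : Fin 6 → ℂ} (h : ∀ l ∈ L, Cnd B g l (w l)) : ∃ δ > (0 : ℝ), ∃ c > (0 : ℝ), ∀ l ∈ L, ∀ z,
      ‖z - w l‖ < δ → Cnd B g l z ∧ ∀ t : ℝ, 0 ≤ t → c * (1 + t) ≤ ‖(t + g t * I : ℂ) - z‖ := by
  induction L using Finset.induction_on with
  | empty => exact ⟨1, one_pos, 1, one_pos, fun l hl => absurd hl (Finset.notMem_empty l)⟩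
  | insert a s ha ih =>
    obtain ⟨δ, hδ, c, hc, h1⟩ := ih fun l hl => h l (Finset.mem_insert_of_mem hl)
    obtain ⟨δ', hδ', c', hc', h2⟩ := one_label hg (h a (Finset.mem_insert_self a s))
    refine ⟨min δ δ', lt_min hδ hδ', min c c', lt_min hc hc', fun l hl z hz => ?_⟩
    rcases Finset.mem_insert.1 hl with rfl | hl
    · obtain ⟨h3, h4⟩ := h2 z (lt_of_lt_of_le hz (min_le_right _ _))
      refine ⟨h3, fun t ht => le_trans ?_ (h4 t ht)⟩
      gcongr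
      exact min_le_right _ _
    · obtain ⟨h3, h4⟩ := h1 l hl z (lt_of_lt_of_le hz (min_le_left _ _))
      refine ⟨h3, fun t ht => le_trans ?_ (h4 t ht)⟩
      gcongr
      exact min_le_left _ _

theorem gam_sub (x z : ℂ) (g : ℝ → ℝ) (t : ℝ) : gam x g t - z = (t + g t * I : ℂ) - (z - x) := by
  simp only [gam]; ring

/-- **Row GP-LOW, first half.** -/
theorem stmLOW : StmLOW := by
  intro B b₀ x₀ g hA hx
  have hg : Continuous g := hA.1.smooth.continuous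
  obtain ⟨δ, hδ, c, hc, h⟩ := all_labels (B := B) hg Finset.univ (w := fun l => b₀ l - x₀)
    fun l _ h0 => hA.2 l (hx l) h0
  refine ⟨δ / 2, half_pos hδ, c, hc, fun b x hb hxx => ?_⟩
  have h1 : ∀ l, ‖(b l - x) - (b₀ l - x₀)‖ < δ := fun l => by
    have e : (b l - x) - (b₀ l - x₀) = (b - b₀) l - (x - x₀) := by simp only [Pi.sub_apply]; ring
    have h2 : ‖(b - b₀) l‖ ≤ ‖b - b₀‖ := norm_le_pi_norm _ l
    calc ‖(b l - x) - (b₀ l - x₀)‖ = ‖(b - b₀) l - (x - x₀)‖ := by rw [e]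
      _ ≤ ‖(b - b₀) l‖ + ‖x - x₀‖ := norm_sub_le _ _
      _ < δ := by linarith
  have h3 : ∀ t ≥ (0 : ℝ), ∀ l, c * (1 + t) ≤ ‖gam x g t - b l‖ := fun t ht l => by
    rw [gam_sub]; exact (h l (Finset.mem_univ l) _ (h1 l)).2 t ht
  refine ⟨⟨hA.1, fun l _ h0 => (h l (Finset.mem_univ l) _ (h1 l)).1 h0⟩, fun l e => ?_, h3⟩
  have h4 := h3 0 le_rfl l
  rw [gam_zero hA.1.zero, e, sub_self, norm_zero] at h4
  linarith

/-- **Row GP-LOW, second half.** -/
theorem stmLOWR : StmLOWR := by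
  intro B b₀ j g hA hx
  have hg : Continuous g := hA.1.smooth.continuous
  obtain ⟨δ, hδ, c, hc, h⟩ := all_labels (B := B) hg (Finset.univ.erase j)
    (w := fun l => b₀ l - b₀ j) fun l hl h0 => hA.2 l (hx l (Finset.ne_of_mem_erase hl)) h0
  refine ⟨δ / 2, half_pos hδ, c, hc, fun b hb => ?_⟩
  have h1 : ∀ l, ‖(b l - b j) - (b₀ l - b₀ j)‖ < δ := fun l => by
    have e : (b l - b j) - (b₀ l - b₀ j) = (b - b₀) l - (b - b₀) j := by
      simp only [Pi.sub_apply]; ring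
    have h2 : ‖(b - b₀) l‖ ≤ ‖b - b₀‖ := norm_le_pi_norm _ l
    have h3 : ‖(b - b₀) j‖ ≤ ‖b - b₀‖ := norm_le_pi_norm _ j
    calc ‖(b l - b j) - (b₀ l - b₀ j)‖ = ‖(b - b₀) l - (b - b₀) j‖ := by rw [e]
      _ ≤ ‖(b - b₀) l‖ + ‖(b - b₀) j‖ := norm_sub_le _ _
      _ < δ := by linarith
  have h3 : ∀ t ≥ (0 : ℝ), ∀ l, l ≠ j → c * (1 + t) ≤ ‖gam (b j) g t - b l‖ :=
    fun t ht l hl => by
      rw [gam_sub]
      exact (h l (Finset.mem_erase.2 ⟨hl, Finset.mem_univ l⟩) _ (h1 l)).2 t ht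
  refine ⟨⟨hA.1, fun l hl h0 => ?_⟩, fun l hl e => ?_, h3⟩
  · have hlj : l ≠ j := by rintro rfl; exact hl rfl
    exact (h l (Finset.mem_erase.2 ⟨hlj, Finset.mem_univ l⟩) _ (h1 l)).1 h0
  · have h4 := h3 0 le_rfl l hl
    rw [gam_zero hA.1.zero, e, sub_self, norm_zero] at h4
    linarith

end

end Vale.Agent.P273.H484
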