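import Vale.Agent.P273.H484.Split
import Vale.Agent.P273.H573.SumDefs

/-!
# P273, LIM: `split : H573.Split`
-/

noncomputable section

namespace Vale.Agent.P273.H484

open Set Filter MeasureTheory H681 H95 H732 H973 H562 H573
open scoped Topology ContDiff

section

variable (R : Region) (m : ∀ k, Fin (R.n k + 1)) (B : Finset (W R m).Fr)

/-- the surviving gaps are the free gaps that are not in `B` -/
def svE : Sv R (big R m B) ≃ {f : (W R m).Fr // f ∉ B} where
  toFun g := ⟨svF R m B g, svF_notMem R m B g⟩
  invFun f := ⟨f.1.1, fun h => f.2 ((mem_big_iff R m B f.1).1 h)⟩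
  left_inv _ := rfl
  right_inv _ := rfl

theorem sfr_svE (x : {f : (W R m).Fr // f ∉ B} ⊕ R.Cm) (c : Bool) :
    sfr R m B (Equiv.sumCongr (svE R m B).symm (Equiv.refl R.Cm) x) c = cln R m B x c := by
  rcases x with f | s <;> rfl

theorem dirB_eq (a b : Co R m) (x : Option {f // f ∈ B}) (c : Bool) :
    dirB R m B a b (x, c) = dty R m B a b x c := by
  rcases x with _ | f <;> cases c <;> rfl

end

/-- **(S6-split)** -/
theorem split : Split := by
  intro X R m far T n B p a b _ ha hb e₈ e₇
  rw [OmL_split' R m X T n (Sx R far) p a b ha hb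
    (e₈.trans (Equiv.sumCongr (svE R m B).symm (Equiv.refl R.Cm))) e₇]
  congr 1
  · congr 1
    funext i
    exact sfr_svE R m B _ _
  · congr 1
    funext i
    exact dirB_eq R m B a b _ _

end Vale.Agent.P273.H484

end
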